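import Vale.Agent.Lib.PCP.Final

/-!
Maximum coverage with an arbitrary number of sets: `k` sets cover everything, or any `t` sets leave
at least a fraction `α - β * t / k` of the elements uncovered.
-/

namespace Vale.Agent.N334B

open Vale.Agent.Lib.PolyTime Vale.Agent.Lib.PCP Vale.Agent.Lib.PCP.MaxCover Finset
open scoped BigOperators

/-- The gap problem. -/
def Cov (W : Type) [DecidableEq W] (α β : ℝ) : Promise (ℕ × List (List W)) where
  yes p := (MaxCov W 0).yes p
  no p := 0 < p.1 ∧ p.2 ≠ [] ∧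
    ∀ T : Finset W, (α - β * (T.card / p.1)) * p.2.length ≤ viol covered p.2 T

theorem red_cov_name (W : Type) [DecidableEq W] [Enc W] [EncInj W] (α : ℝ) {β : ℝ} (hβ : 0 ≤ β) :
    Red (Cov W α β) (Cov ℕ α β) := by
  refine ⟨fun p => (p.1, p.2.map fun e => e.map name), PT.fst'.pair (PT.map PT.snd'
    (PT.map (f := fun _ w => name w) PT.snd' (PT.name PT.snd'))), ?_, ?_⟩
  · rintro ⟨k, l⟩ ⟨h1, h2, T, h3, h4⟩
    refine ⟨h1, by simpa using h2, T.image name, card_image_le.trans h3, fun e he => ?_⟩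
    obtain ⟨e, he', rfl⟩ := List.mem_map.1 he
    obtain ⟨w, hw, hw'⟩ := covered_iff.1 (h4 e he')
    exact covered_iff.2 ⟨name w, List.mem_map_of_mem hw, mem_image_of_mem _ hw'⟩
  · rintro ⟨k, l⟩ ⟨h1, h2, h3⟩
    refine ⟨h1, by simpa using h2, fun T => ?_⟩
    have h4 := h3 (T.preimage name name_injective.injOn)
    have h5 : (T.preimage (name : W → ℕ) name_injective.injOn).card ≤ T.card := by
      refine card_le_card_of_injOn name (fun w hw => ?_) name_injective.injOn
      simpa using hw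
    rw [viol_map (sat := covered) (sat' := covered) _ _ (T.preimage name name_injective.injOn) T,
      List.length_map]
    · refine le_trans ?_ h4
      dsimp only
      gcongr
    · intro e _
      rw [Bool.eq_iff_iff, covered_iff, covered_iff]
      simp

theorem tangent' {q : ℝ} (hq : 0 < q) (a : ℝ) (t : ℕ) :
    Real.exp (-a) * (1 + a + Real.log q * t) ≤ q ^ t := by
  have h1 := Real.add_one_le_exp (a + Real.log q * t)
  have h2 : q ^ t = Real.exp (-a) * Real.exp (a + Real.log q * t) := by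
    rw [← Real.exp_add, neg_add_cancel_left, mul_comm, Real.exp_nat_mul, Real.exp_log hq]
  rw [h2]
  exact mul_le_mul_of_nonneg_left (by linarith) (Real.exp_pos _).le

theorem unc_avg' {D B : Type} [Fintype D] [Nonempty D] [Fintype B] [DecidableEq B] {l : ℕ}
    (hl : 2 ≤ l) (n : D → B → ℕ) (R : ℕ) (a : ℝ) :
    Real.exp (-a) * (1 + a + Real.log (1 - 1 / (l : ℝ)) * l * 𝔼 d, ((∑ b, n d b : ℕ) : ℝ)) -
      (1 - 1 / (l : ℝ)) ^ R - (l : ℝ) ^ 2 * ∑ b, (𝔼 d, trunc n R d b) ^ 2 ≤
      𝔼 i : Fin l → D, 𝔼 x : B → Fin l, if ∀ b, n (i (x b)) b = 0 then (1 : ℝ) else 0 := by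
  have hl' : (2 : ℝ) ≤ l := by exact_mod_cast hl
  have hq : 0 < 1 - 1 / (l : ℝ) := by
    rw [sub_pos, div_lt_one (by linarith)]
    linarith
  refine le_trans ?_ (expect_le_expect fun i _ => unc_ge (by omega) n R i)
  rw [expect_sub_distrib, expect_sub_distrib, Fintype.expect_const]
  refine sub_le_sub (sub_le_sub_right ?_ _) ?_
  · refine le_trans (le_of_eq ?_) (expect_le_expect fun i _ => tangent' hq a _)
    rw [← mul_expect, expect_add_distrib, ← mul_expect, Fintype.expect_const]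
    have h1 : 𝔼 i : Fin l → D, ((∑ j, ∑ b, n (i j) b : ℕ) : ℝ) =
        l * 𝔼 d, ((∑ b, n d b : ℕ) : ℝ) := by
      simp only [Nat.cast_sum (s := (univ : Finset (Fin l)))]
      rw [expect_sum_comm, Finset.sum_congr rfl fun j _ =>
        expect_one j (fun d => ((∑ b, n d b : ℕ) : ℝ))]
      simp
    rw [h1]
    ring
  · rw [expect_sum_comm]
    have h1 : ∀ j : Fin l, 𝔼 i : Fin l → D, ∑ j' ∈ univ.erase j, ∑ b,
        trunc n R (i j) b * trunc n R (i j') b ≤ l * ∑ b, (𝔼 d, trunc n R d b) ^ 2 := by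
      intro j
      rw [expect_sum_comm]
      have h2 : ∀ j' ∈ univ.erase j, 𝔼 i : Fin l → D, ∑ b,
          trunc n R (i j) b * trunc n R (i j') b = ∑ b, (𝔼 d, trunc n R d b) ^ 2 := by
        intro j' hj'
        rw [expect_sum_comm]
        exact Finset.sum_congr rfl fun b _ => by
          rw [expect_two (mem_erase.1 hj').1 (fun d => trunc n R d b) (fun d => trunc n R d b), sq]
      rw [Finset.sum_congr rfl h2, Finset.sum_const, nsmul_eq_mul]
      refine mul_le_mul_of_nonneg_right ?_ (sum_nonneg fun _ _ => sq_nonneg _)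
      have : (univ.erase j).card ≤ l := card_erase_le.trans (by simp)
      exact_mod_cast this
    refine (Finset.sum_le_sum fun j _ => h1 j).trans (le_of_eq ?_)
    simp only [Finset.sum_const, card_univ, Fintype.card_fin, nsmul_eq_mul]
    ring

theorem sound' {D A B : Type} [Fintype D] [Fintype A] [Fintype B] [DecidableEq A] [DecidableEq B]
    [Nonempty D] [Nonempty A] [Nonempty B] {G : LC D A B} {dV : ℕ} (hG : G.WF dV)
    {δ : ℝ} (h : G.ValLE δ) {l R : ℕ} (hl : 2 ≤ l) (hR : 0 < R) (a₀ : ℝ) (T : Finset (ℕ × A)) :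
    (Real.exp (-a₀) * (1 + a₀ + Real.log (1 - 1 / (l : ℝ)) * l * (T.card / G.nV)) -
      (1 - 1 / (l : ℝ)) ^ R - (l : ℝ) ^ 2 * ((R : ℝ) ^ 2 * δ)) * (elems G l).length ≤
      viol covered (elems G l) T := by
  have hl' : (2 : ℝ) ≤ l := by exact_mod_cast hl
  have hR' : (0 : ℝ) < R := by exact_mod_cast hR
  have hD : (0 : ℝ) < Fintype.card D := by exact_mod_cast Fintype.card_pos
  have hV : (0 : ℝ) < G.nV := by
    exact_mod_cast (Nat.zero_le _).trans_lt (hG.lt 0 hG.pos (Classical.arbitrary D))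
  have hq : 0 < 1 - 1 / (l : ℝ) := by
    rw [sub_pos, div_lt_one (by linarith)]
    linarith
  have hq1 : 1 - 1 / (l : ℝ) ≤ 1 := by
    have : 0 ≤ 1 / (l : ℝ) := by positivity
    linarith
  set w : ℕ → ℕ := fun v => ∑ a, if (v, a) ∈ T then 1 else 0 with hw
  set n : ℕ → D → B → ℕ := fun u d b =>
    ∑ a, if (G.nbr u d, a) ∈ T ∧ G.proj u d a = b then 1 else 0 with hn
  have hnw : ∀ u d, ∑ b, n u d b = w (G.nbr u d) := by
    intro u d
    simp only [hn, hw]
    rw [Finset.sum_comm]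
    refine Finset.sum_congr rfl fun a _ => ?_
    by_cases e : (G.nbr u d, a) ∈ T <;> simp [e]
  -- the average number of labels
  have hw1 : ∑ v ∈ range G.nV, (w v : ℝ) ≤ T.card := by
    have h1 : ∑ v ∈ range G.nV, w v ≤ T.card := by
      simp only [hw]
      rw [← Finset.sum_product', ← Finset.card_filter]
      exact card_le_card fun p hp => (mem_filter.1 hp).2
    exact_mod_cast h1
  have hw2 : ∑ u ∈ range G.nU, 𝔼 d, ((∑ b, n u d b : ℕ) : ℝ) ≤ T.card / G.nV * G.nU := by
    simp only [hnw, Fintype.expect_eq_sum_div_card]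
    rw [← Finset.sum_div, div_le_iff₀ hD, sum_nbr hG (fun v => (w v : ℝ))]
    have h1 := sum_nbr hG (fun _ => (1 : ℝ))
    simp only [Finset.sum_const, card_univ, card_range, nsmul_eq_mul, mul_one] at h1
    rw [mul_assoc, h1, mul_left_comm, div_mul_cancel₀ _ hV.ne']
    exact mul_le_mul_of_nonneg_left hw1 (Nat.cast_nonneg _)
  -- collisions
  have hcol : ∑ u ∈ range G.nU, ∑ b, (𝔼 d, trunc (n u) R d b) ^ 2 ≤ (R : ℝ) ^ 2 * δ * G.nU := by
    have hpf : ∀ u d b, ∑ a, (if G.proj u d a = b then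
        (if w (G.nbr u d) ≤ R ∧ (G.nbr u d, a) ∈ T then 1 / (R : ℝ) else 0) else 0) =
        trunc (n u) R d b / R := by
      intro u d b
      unfold trunc
      rw [hnw]
      by_cases e : w (G.nbr u d) ≤ R
      · rw [if_pos e]
        simp only [hn]
        push_cast
        rw [Finset.sum_div]
        refine Finset.sum_congr rfl fun a _ => ?_
        by_cases e1 : G.proj u d a = b <;> by_cases e2 : (G.nbr u d, a) ∈ T <;> simp [e, e1, e2]
      · simp [e]
    have h1 := h.frac (fun u b => (𝔼 d, trunc (n u) R d b) / R)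
      (fun v a => if w v ≤ R ∧ (v, a) ∈ T then 1 / (R : ℝ) else 0)
      (fun u b => div_nonneg (expect_nonneg fun d _ => trunc_nonneg _ _ _ _) hR'.le)
      (fun u => by
        rw [← Finset.sum_div, div_le_one hR', ← expect_sum_comm]
        refine (expect_le_expect (g := fun _ => (R : ℝ)) fun d _ => ?_).trans (by simp)
        unfold trunc
        split_ifs with e
        · exact_mod_cast e
        · simp)
      (fun v a => by split_ifs <;> positivity)
      (fun v => by
        by_cases e : w v ≤ R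
        · have h2 : ∑ a, (if w v ≤ R ∧ (v, a) ∈ T then 1 / (R : ℝ) else 0) = w v / R := by
            simp only [hw]
            push_cast
            rw [Finset.sum_div]
            refine Finset.sum_congr rfl fun a _ => ?_
            by_cases e2 : (v, a) ∈ T
            · rw [if_pos ⟨e, e2⟩, if_pos e2]
            · rw [if_neg fun h => e2 h.2, if_neg e2, zero_div]
          rw [h2, div_le_one hR']
          exact_mod_cast e
        · simp [e])
    have h2 : ∀ u, ∑ i, ∑ a, (if w (G.nbr u i) ≤ R ∧ (G.nbr u i, a) ∈ T then 1 / (R : ℝ) else 0) *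
        ((𝔼 d, trunc (n u) R d (G.proj u i a)) / R) =
        Fintype.card D / (R : ℝ) ^ 2 * ∑ b, (𝔼 d, trunc (n u) R d b) ^ 2 := by
      intro u
      have h3 : ∀ i, ∑ a, (if w (G.nbr u i) ≤ R ∧ (G.nbr u i, a) ∈ T then 1 / (R : ℝ) else 0) *
          ((𝔼 d, trunc (n u) R d (G.proj u i a)) / R) =
          ∑ b, trunc (n u) R i b / R * ((𝔼 d, trunc (n u) R d b) / R) := by
        intro i
        simp only [← hpf, Finset.sum_mul]
        rw [Finset.sum_comm]
        refine Finset.sum_congr rfl fun a _ => ?_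
        simp only [ite_mul, zero_mul, Finset.sum_ite_eq, mem_univ, if_true]
      rw [Finset.sum_congr rfl fun i _ => h3 i, Finset.sum_comm, Finset.mul_sum]
      refine Finset.sum_congr rfl fun b _ => ?_
      rw [← Finset.sum_mul, ← Finset.sum_div, ← Fintype.card_mul_expect]
      field_simp
    rw [Finset.sum_congr rfl fun u _ => h2 u, ← Finset.mul_sum, div_mul_eq_mul_div,
      div_le_iff₀ (by positivity)] at h1
    refine le_of_mul_le_mul_left ?_ hD
    linarith only [h1]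
  -- the uncovered elements
  have hK : (0 : ℝ) ≤ Fintype.card ((Fin l → D) × (B → Fin l)) := Nat.cast_nonneg _
  have hv : (viol covered (elems G l) T : ℝ) = Fintype.card ((Fin l → D) × (B → Fin l)) *
      ∑ u ∈ range G.nU, 𝔼 i : Fin l → D, 𝔼 x : B → Fin l,
        if ∀ b, n u (i (x b)) b = 0 then (1 : ℝ) else 0 := by
    rw [viol_eq_sum, elems, sum_map_flatMap, sum_map_range, Finset.mul_sum]
    refine Finset.sum_congr rfl fun u _ => ?_
    rw [List.map_map, sum_map_univ, ← Fintype.card_mul_expect, ← univ_product_univ,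
      expect_product]
    congr 1
    refine expect_congr rfl fun i _ => expect_congr rfl fun x _ => ?_
    have h1 : covered (elem G u (i, x)) T = true ↔ ¬ ∀ b, n u (i (x b)) b = 0 := by
      rw [covered_elem]
      simp only [hn, Finset.sum_eq_zero_iff, mem_univ, true_imp_iff, ite_eq_right_iff,
        one_ne_zero, imp_false, not_forall, not_not]
      constructor
      · rintro ⟨j, a, h1, h2⟩
        exact ⟨G.proj u (i j) a, a, by rw [h1]; exact ⟨h2, rfl⟩⟩
      · rintro ⟨b, a, h1, h2⟩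
        exact ⟨x b, a, by rw [h2], h1⟩
    simp only [Function.comp_apply, h1]
    split_ifs <;> rfl
  have hsum := Finset.sum_le_sum (s := range G.nU) fun u _ => unc_avg' hl (n u) R a₀
  simp only [Finset.sum_sub_distrib, ← Finset.mul_sum, Finset.sum_add_distrib, Finset.sum_const,
    card_range, nsmul_eq_mul, mul_one] at hsum
  have hlog : Real.log (1 - 1 / (l : ℝ)) * l ≤ 0 :=
    mul_nonpos_of_nonpos_of_nonneg (Real.log_nonpos hq.le hq1) (by linarith)
  have h1 := mul_nonneg_of_nonpos_of_nonpos hlog (sub_nonpos.2 hw2)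
  have h2 := mul_nonneg (Real.exp_pos (-a₀)).le h1
  have h3 := mul_le_mul_of_nonneg_left hcol (show (0 : ℝ) ≤ (l : ℝ) ^ 2 by positivity)
  have h4 : (Real.exp (-a₀) * (1 + a₀ + Real.log (1 - 1 / (l : ℝ)) * l * (T.card / G.nV)) -
      (1 - 1 / (l : ℝ)) ^ R - (l : ℝ) ^ 2 * ((R : ℝ) ^ 2 * δ)) *
      G.nU ≤ ∑ u ∈ range G.nU, 𝔼 i : Fin l → D, 𝔼 x : B → Fin l,
        if ∀ b, n u (i (x b)) b = 0 then (1 : ℝ) else 0 := by
    nlinarith only [hsum, h2, h3]
  have h5 := mul_le_mul_of_nonneg_left h4 hK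
  have h7 : ((elems G l).length : ℝ) = Fintype.card ((Fin l → D) × (B → Fin l)) * G.nU := by
    exact_mod_cast length_elems G l
  rw [← hv] at h5
  rw [h7]
  linarith only [h5]

theorem exists_params' {ε : ℝ} (hε : 0 < ε) : ∃ (l R : ℕ) (δ : ℝ), 2 ≤ l ∧ 0 < R ∧ 0 < δ ∧
    -(1 + ε) ≤ Real.log (1 - 1 / (l : ℝ)) * l ∧
    (1 - 1 / (l : ℝ)) ^ R + (l : ℝ) ^ 2 * ((R : ℝ) ^ 2 * δ) ≤ ε := by
  obtain ⟨m, hm⟩ := exists_nat_ge (1 / ε)
  have hm0 : (0 : ℝ) ≤ m := Nat.cast_nonneg _
  have hl' : ((m + 2 : ℕ) : ℝ) = m + 2 := by push_cast; rfl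
  have hq1 : 1 - 1 / ((m + 2 : ℕ) : ℝ) < 1 := by
    have : 0 < 1 / ((m + 2 : ℕ) : ℝ) := by positivity
    linarith
  have hq : 1 - 1 / ((m + 2 : ℕ) : ℝ) = (m + 1) / (m + 2) := by
    rw [hl']
    field_simp
    ring
  have hq0 : 0 < 1 - 1 / ((m + 2 : ℕ) : ℝ) := by
    rw [hq]
    positivity
  obtain ⟨R, hR⟩ := exists_pow_lt_of_lt_one (show 0 < ε / 2 by positivity) hq1
  have hR' := pow_le_pow_of_le_one hq0.le hq1.le (Nat.le_add_right R 1)
  refine ⟨m + 2, R + 1, ε / 2 / (((m + 2 : ℕ) : ℝ) ^ 2 * ((R + 1 : ℕ) : ℝ) ^ 2), by omega,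
    Nat.succ_pos R, by positivity, ?_, ?_⟩
  · have h1 := Real.one_sub_inv_le_log_of_pos hq0
    refine le_trans ?_ (mul_le_mul_of_nonneg_right h1 (Nat.cast_nonneg _))
    rw [hq, hl', inv_div]
    have h2 : (1 - (m + 2) / (m + 1) : ℝ) * (m + 2) = -(1 + 1 / (m + 1)) := by
      field_simp
      ring
    have h3 : 1 / (m + 1 : ℝ) ≤ ε := by
      rw [div_le_iff₀ hε] at hm
      rw [div_le_iff₀ (by positivity)]
      nlinarith
    rw [h2]
    linarith
  · have h3 : ((m + 2 : ℕ) : ℝ) ^ 2 * (((R + 1 : ℕ) : ℝ) ^ 2 *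
        (ε / 2 / (((m + 2 : ℕ) : ℝ) ^ 2 * ((R + 1 : ℕ) : ℝ) ^ 2))) = ε / 2 := by
      field_simp
    rw [h3]
    linarith

/-- The theorem of Feige in tangent form. -/
theorem hard_cov (a : ℝ) {ε : ℝ} (hε : 0 < ε) :
    Hard (Cov ℕ (Real.exp (-a) * (1 + a) - ε) (Real.exp (-a) * (1 + ε))) := by
  obtain ⟨l, R, δ, hl, hR, hδ, hs1, hs2⟩ := exists_params' hε
  obtain ⟨d, a', b, dV, F, -, hF⟩ := label_cover δ hδ
  refine Hard.red ?_ (red_cov_name (ℕ × Fin (a' + 1)) _ (by positivity))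
  have : Nonempty (Fin l) := ⟨⟨0, by omega⟩⟩
  have hk : ∀ φ, 0 < (F φ).nV := fun φ =>
    (Nat.zero_le _).trans_lt ((hF.wf φ).lt 0 (hF.wf φ).pos 0)
  have hne : ∀ φ, elems (F φ) l ≠ [] := fun φ => by
    rw [← List.length_pos_iff, length_elems]
    exact Nat.mul_pos Fintype.card_pos (hF.wf φ).pos
  refine ⟨fun φ => ((F φ).nV, elems (F φ) l), hF.pt.nV.pair (pt_elems hF.pt l),
    fun φ hφ => ⟨hk φ, hne φ, complete (hF.wf φ) (hF.sat φ hφ) l⟩,
    fun φ hφ => ⟨hk φ, hne φ, fun T => ?_⟩⟩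
  refine le_trans (mul_le_mul_of_nonneg_right ?_ (Nat.cast_nonneg _))
    (sound' (hF.wf φ) (hF.val φ hφ) hl hR a T)
  have h1 := mul_le_mul_of_nonneg_left (mul_le_mul_of_nonneg_right hs1
    (show (0 : ℝ) ≤ T.card / (F φ).nV by positivity)) (Real.exp_pos (-a)).le
  dsimp only
  linarith

end Vale.Agent.N334B
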