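import Vale.Agent.P334.Classes
import Mathlib.Topology.MetricSpace.HausdorffDistance
import Mathlib.Algebra.BigOperators.Expect

/-!
Metric `k`-median with `γ * k` facilities allowed, and facility location with uniform opening cost.
-/

namespace Vale.Agent.N334B

open Vale.Agent.P334

/-- A metric on the points `0, …, n - 1` whose values are the rational numbers `d x y`, a set `J` of
clients and a set `F` of candidate facilities. -/
structure Space where
  n : ℕ
  metric : MetricSpace (Fin n)
  d : Fin n → Fin n → ℚ
  dist_eq : ∀ x y, metric.dist x y = d x y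
  J : Finset (Fin n)
  F : Finset (Fin n)

/-- A nonnegative rational number: numerator and denominator in binary. -/
def ratW (r : ℚ) : List Bool := pairW r.num.natAbs.bits r.den.bits

namespace Space

/-- The sum over the clients of the distance to the set `S`. -/
noncomputable def cost (X : Space) (S : Finset (Fin X.n)) : ℝ :=
  ∑ j ∈ X.J, @Metric.infDist _ X.metric.toPseudoMetricSpace j S

/-- The least cost of a set `S ⊆ F` with `1 ≤ |S| ≤ k`. -/
noncomputable def opt (X : Space) (k : ℕ) : ℝ :=
  sInf (X.cost '' {S | S ⊆ X.F ∧ 1 ≤ S.card ∧ S.card ≤ k})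

/-- The binary code: `n`, the characteristic words of `J` and `F`, the matrix of distances. -/
def code (X : Space) : List Bool :=
  listW [X.n.bits, setW X.J, setW X.F,
    listW (List.ofFn fun x => listW (List.ofFn fun y => ratW (X.d x y)))]

/-- On the input `w` and `q (length of w)` random bits `ρ`, the function `A` outputs the
characteristic word of `S ρ`, a nonempty set of candidate facilities. -/
def Outputs (X : Space) (A : List Bool → List Bool) (q : Polynomial ℕ) (w : List Bool)
    (S : (Fin (q.eval w.length) → Bool) → Finset (Fin X.n)) : Prop :=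
  ∀ ρ, A (pairW w (List.ofFn ρ)) = setW (S ρ) ∧ S ρ ⊆ X.F ∧ 1 ≤ (S ρ).card

end Space

/-- There is a randomized polynomial time algorithm for `k`-median which always opens at most
`γ * k` facilities and whose expected cost is at most `c` times the optimum for `k` facilities.
For `γ = 1` this is a `c`-approximation algorithm. -/
def KMedian (γ c : ℝ) : Prop :=
  ∃ (A : List Bool → List Bool) (q : Polynomial ℕ), PolyTime A ∧
    ∀ (X : Space) (k : ℕ), 1 ≤ k → k ≤ X.F.card →
      ∃ S, X.Outputs A q (pairW k.bits X.code) S ∧ (∀ ρ, ((S ρ).card : ℝ) ≤ γ * k) ∧
        Finset.univ.expect (fun ρ => X.cost (S ρ)) ≤ c * X.opt k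

/-- The threshold for `k`-median with `γ * k` facilities. -/
noncomputable def alpha (γ : ℝ) : ℝ := sInf {c : ℝ | 1 ≤ c ∧ KMedian γ c}

/-- There is a randomized polynomial time algorithm for facility location with the same opening
cost `f` for all facilities, whose expected total cost is at most `a` times the opening cost plus
`b` times the connection cost of every solution `T`. For `a = b = c` this is a `c`-approximation
algorithm. -/
def FacLoc (a b : ℝ) : Prop :=
  ∃ (A : List Bool → List Bool) (q : Polynomial ℕ), PolyTime A ∧
    ∀ (X : Space) (f : ℚ), 0 ≤ f → X.F.Nonempty →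
      ∃ S, X.Outputs A q (pairW (ratW f) X.code) S ∧ ∀ T ⊆ X.F, T.Nonempty →
        Finset.univ.expect (fun ρ => (f : ℝ) * (S ρ).card + X.cost (S ρ)) ≤
          a * (f * T.card) + b * X.cost T

/-- The approximation threshold of facility location with uniform opening cost. -/
noncomputable def beta : ℝ := sInf {c : ℝ | 1 ≤ c ∧ FacLoc c c}

end Vale.Agent.N334B
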