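import Vale.Agent.N334B.Defs
import Vale.Agent.N334B.Cover
import Vale.Agent.N334.Top

/-!
The lower bounds for `k`-median with more facilities and for uniform facility location.
-/

namespace Vale.Agent.N334B

open Vale.Agent.P334 Vale.Agent.P334.Lower Vale.Agent.Lib.PolyTime Vale.Agent.Lib.PCP
  Vale.Agent.Lib.PTM Vale.Agent.P049 Finset

/-! ### Spaces and instances -/

/-- The instance given by a space and a number `k`. -/
def toInst (X : Space) (k : ℕ) (h1 : 1 ≤ k) (h2 : k ≤ X.F.card) : Instance where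
  n := X.n
  d := X.d
  J := X.J
  F := X.F
  k := k
  d_eq_zero x y := by
    rw [← Rat.cast_eq_zero (α := ℝ), ← X.dist_eq]
    exact @dist_eq_zero _ X.metric x y
  d_comm x y := by
    rw [← Rat.cast_inj (α := ℝ), ← X.dist_eq, ← X.dist_eq]
    exact @dist_comm _ X.metric.toPseudoMetricSpace x y
  d_triangle x y z := by
    rw [← Rat.cast_le (K := ℝ), Rat.cast_add, ← X.dist_eq, ← X.dist_eq, ← X.dist_eq]
    exact @dist_triangle _ X.metric.toPseudoMetricSpace x y z
  one_le_k := h1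
  k_le := h2

/-- The space of an instance. -/
noncomputable def ofInst (I : Instance) : Space where
  n := I.n
  metric :=
    { dist x y := I.d x y
      dist_self x := by rw [(I.d_eq_zero x x).2 rfl, Rat.cast_zero]
      dist_comm x y := by rw [I.d_comm]
      dist_triangle x y z := by exact_mod_cast I.d_triangle x y z
      eq_of_dist_eq_zero h := (I.d_eq_zero _ _).1 (Rat.cast_eq_zero.1 h) }
  d := I.d
  dist_eq _ _ := rfl
  J := I.J
  F := I.F

theorem cost_toInst (X : Space) (k : ℕ) (h1 : 1 ≤ k) (h2 : k ≤ X.F.card)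
    (S : Finset (Fin X.n)) : (toInst X k h1 h2).cost S = X.cost S := by
  refine sum_congr rfl fun j _ => Eq.trans ?_
    (@Metric.infDist_eq_iInf _ X.metric.toPseudoMetricSpace (S : Set (Fin X.n)) j).symm
  refine congrArg sInf (Set.ext fun r => ?_)
  constructor
  · rintro ⟨i, hi, rfl⟩
    exact ⟨⟨i, hi⟩, X.dist_eq j i⟩
  · rintro ⟨⟨i, hi⟩, rfl⟩
    exact ⟨i, hi, X.dist_eq j i⟩

theorem opt_toInst (X : Space) (k : ℕ) (h1 : 1 ≤ k) (h2 : k ≤ X.F.card) :
    (toInst X k h1 h2).opt = X.opt k := by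
  rw [Instance.opt, Space.opt]
  congr 1
  ext r
  constructor
  · rintro ⟨S, hS, rfl⟩
    exact ⟨S, hS, (cost_toInst X k h1 h2 S).symm⟩
  · rintro ⟨S, hS, rfl⟩
    exact ⟨S, hS, (cost_toInst X k h1 h2 S).symm⟩

theorem cost_ofInst (I : Instance) (S : Finset (Fin I.n)) : (ofInst I).cost S = I.cost S :=
  (cost_toInst (ofInst I) I.k I.one_le_k I.k_le S).symm

theorem opt_ofInst (I : Instance) : (ofInst I).opt I.k = I.opt :=
  (opt_toInst (ofInst I) I.k I.one_le_k I.k_le).symm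

theorem space_cost_nonneg (X : Space) (S : Finset (Fin X.n)) : 0 ≤ X.cost S :=
  sum_nonneg fun _ _ => @Metric.infDist_nonneg _ X.metric.toPseudoMetricSpace _ _

theorem exists_opt_inst (I : Instance) : ∃ S, I.Feasible S ∧ I.cost S = I.opt := by
  obtain ⟨S, hS, e⟩ : I.opt ∈ {r : ℝ | ∃ S, I.Feasible S ∧ r = I.cost S} := by
    refine Set.Nonempty.csInf_mem
      ⟨_, _, feasible_toSet I (feas_head (valid_conv I).F_ne I.one_le_k), rfl⟩ ?_
    exact (Set.finite_range I.cost).subset fun r ⟨S, _, e⟩ => ⟨S, e.symm⟩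
  exact ⟨S, hS, e.symm⟩

/-- The type of the data in the code of a space. -/
abbrev SDat : Type := ℕ × Raw × Raw × List (List (ℕ × ℕ)) × Unit

/-- The data of a space. -/
def sdat (X : Space) : SDat := (X.n, ⟨setW X.J⟩, ⟨setW X.F⟩,
  List.ofFn fun x => List.ofFn fun y => ((X.d x y).num.natAbs, (X.d x y).den), ())

theorem ratW_eq (r : ℚ) : ratW r = enc (r.num.natAbs, r.den) := by
  rw [ratW, pairW_eq]
  rfl

theorem scode_eq (X : Space) : X.code = enc (sdat X) := by
  have h : listW (List.ofFn fun x => listW (List.ofFn fun y => ratW (X.d x y))) =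
      enc (List.ofFn fun x => List.ofFn fun y => ((X.d x y).num.natAbs, (X.d x y).den)) := by
    rw [← listW_eq, List.map_ofFn]
    congr 2
    funext x
    simp only [Function.comp_apply]
    rw [← listW_eq, List.map_ofFn]
    congr 2
    funext y
    exact ratW_eq _
  rw [Space.code, h]
  simp only [listW, pairW_eq]
  rfl

theorem expect_eq {m : ℕ} (X : (Fin m → Bool) → ℝ) : univ.expect X = (∑ ρ, X ρ) / 2 ^ m := by
  rw [Fintype.expect_eq_sum_div_card]
  simp

/-! ### The reduction -/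

theorem pt_dat_inst : PT ∅ fun p => dat (inst p) := by
  obtain ⟨g, hg, h⟩ := pt_data
  exact ⟨g, hg, fun p => by rw [h, ← code_inst, code_eq]⟩

theorem pt_sdat_inst : PT ∅ fun p => sdat (ofInst (inst p)) :=
  pt_dat_inst.fst.pair pt_dat_inst.snd.snd

theorem feas_big {p : ℕ × List (List ℕ)} {S : Finset (Fin (inst p).n)} (h1 : S ⊆ (inst p).F)
    (h2 : 1 ≤ S.card) : (inst ((facs p.2).length, p.2)).Feasible S :=
  have hc : S.card ≤ (facs p.2).length := (card_le_card h1).trans (le_of_eq (card_fac _ _))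
  ⟨h1, h2, le_min (hc.trans (le_max_left _ _)) hc⟩

/-- The value of the output of the algorithm. -/
def val (lam : ℚ) (p : ℕ × List (List ℕ)) (out : Raw) : ℚ :=
  lam * p.2.length / p.1 * (pos out.w.length out).length + 3 * p.2.length - 2 * cntOut p.2 out.w

theorem pt_val (lam : ℚ) {α : Type} [Enc α] {p : α → ℕ × List (List ℕ)} {out : α → Raw}
    (hp : PT ∅ p) (ho : PT ∅ out) : PT ∅ fun a => val lam (p a) (out a) := by
  have h1 : PT ∅ fun a => (pos (out a).w.length (out a)).length :=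
    (PT.filter (PT.range ho.rawLength ho.pbd) (PT.rawGetD (ho.comp PT.fst') PT.snd')).length
  have h2 : PT ∅ fun a => cntOut (p a).2 (out a).w := pt_cntOut hp.snd (PT.listOfRaw ho)
  have h3 : PT ∅ fun a => (p a).2.length := hp.snd.length
  exact PT_ratSub (PT_ratAdd (PT_ratMul (PT_ratDiv (PT_ratMul (PT.const _) (PT_natCast h3))
    (PT_natCast hp.fst)) (PT_natCast h1)) (PT_ratMul (PT.const _) (PT_natCast h3)))
    (PT_ratMul (PT.const _) (PT_natCast h2))

theorem val_setW (lam : ℚ) {p : ℕ × List (List ℕ)} {S : Finset (Fin (inst p).n)}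
    (h1 : S ⊆ (inst p).F) (h2 : 1 ≤ S.card) : (val lam p ⟨setW S⟩ : ℝ) =
      lam * p.2.length / p.1 * S.card + (3 * p.2.length - 2 * cnt covered p.2 (names p S)) := by
  have h3 : (setW S).length = (inst p).n := by simp [setW]
  have h4 : cntOut p.2 (setW S) = cnt covered p.2 (names p S) := 
    cntOut_setW (p := ((facs p.2).length, p.2)) (feas_big h1 h2)
  rw [val]
  dsimp only
  rw [h3, pos_length, h4]
  push_cast
  ring

theorem core {a b : ℝ} (ha : 0 ≤ a) (hb0 : 0 ≤ b) (hb : b < 1 + 2 * Real.exp (-a)) :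
    ∃ lam : ℚ, 0 ≤ lam ∧ ∀ (A : List Bool → List Bool) (q : Polynomial ℕ)
      (w : ℕ × List (List ℕ) → Raw), PolyTime A → PT ∅ w →
      (∀ p, 0 < p.1 → ∃ S : (Fin (q.eval (esize (w p))) → Bool) → Finset (Fin (inst p).n),
        (∀ ρ, A (pairW (w p).w (List.ofFn ρ)) = setW (S ρ) ∧ S ρ ⊆ (inst p).F ∧ 1 ≤ (S ρ).card) ∧
        ((MaxCov ℕ 0).yes p →
        univ.expect (fun ρ => ((lam * p.2.length / p.1 : ℚ) : ℝ) * (S ρ).card +
          (inst p).cost (S ρ)) ≤ (a * lam + b) * p.2.length)) → NP ⊆ BPP := by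
  have he0 := Real.exp_pos (-a)
  have he1 : Real.exp (-a) ≤ 1 := Real.exp_le_one_iff.2 (by linarith)
  obtain ⟨ε, hε, hε1⟩ : ∃ ε : ℝ, 0 < ε ∧ b + (3 * a + 2) * ε < 1 + 2 * Real.exp (-a) := by
    refine ⟨(1 + 2 * Real.exp (-a) - b) / (2 * (3 * a + 2)), div_pos (by linarith) (by positivity),
      ?_⟩
    have : (3 * a + 2) * ((1 + 2 * Real.exp (-a) - b) / (2 * (3 * a + 2))) =
        (1 + 2 * Real.exp (-a) - b) / 2 := by field_simp
    linarith
  obtain ⟨lam, l1, l2⟩ := exists_rat_btwn (lt_add_of_pos_right (2 * (Real.exp (-a) * (1 + ε))) hε)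
  have l0 : (0 : ℝ) ≤ lam := le_trans (by positivity) l1.le
  obtain ⟨r, r1, r2⟩ := exists_rat_btwn
    (show a * lam + b < 1 + 2 * (Real.exp (-a) * (1 + a) - ε) by
      have h1 := mul_le_mul_of_nonneg_left l2.le ha
      have h2 := mul_le_mul_of_nonneg_left he1 (mul_nonneg ha hε.le)
      nlinarith)
  have r0 : (0 : ℝ) < r := lt_of_le_of_lt (by positivity) r1
  refine ⟨lam, by exact_mod_cast l0, fun A q w hA hw h => ?_⟩
  have hard := hard_cov a hε
  have hout : PT ∅ fun z : (ℕ × List (List ℕ)) × Raw => Raw.mk (A (pr (w z.1).w z.2.w)) := by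
    obtain ⟨g, hg, hg'⟩ := (hw.comp PT.fst').pair
      (PT.snd' : PT ∅ fun z : (ℕ × List (List ℕ)) × Raw => z.2)
    exact ⟨_, (polyTime_iff.1 hA).comp hg, fun z => by rw [hg']; rfl⟩
  have hB : PT ∅ fun z : (ℕ × List (List ℕ)) × Raw =>
      decide (val lam z.1 ⟨A (pr (w z.1).w z.2.w)⟩ < r * z.1.2.length) :=
    PT_ratLt (pt_val lam PT.fst' hout) (PT_ratMul (PT.const _) (PT_natCast PT.fst'.snd.length))
  have hq : PT ∅ fun p : ℕ × List (List ℕ) => q.eval (esize (w p)) := pt_polyEval q hw.size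
  have hqb : PBd fun p : ℕ × List (List ℕ) => q.eval (esize (w p)) :=
    (PBd.of_PB (PB.of_polynomial q)).comp hw
  have hyes : ∀ p, (MaxCov ℕ 0).yes p → 1 - (a * lam + b) / r ≤ frq (q.eval (esize (w p)))
      fun ρ => decide (val lam p ⟨A (pr (w p).w ρ)⟩ < r * p.2.length) = true := by
    intro p hp
    obtain ⟨S, hS, hE⟩ := h p hp.1
    have hm : (0 : ℝ) < p.2.length := by exact_mod_cast List.length_pos_iff.2 hp.2.1
    have h1 := frq_markov (fun ρ => ((lam * p.2.length / p.1 : ℚ) : ℝ) * (S ρ).card +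
        (inst p).cost (S ρ))
      (fun ρ => add_nonneg (by push_cast; positivity) (cost_nonneg _ _))
      (fun ρ => ¬ (decide (val lam p ⟨A (pr (w p).w ρ)⟩ < r * p.2.length) = true))
      (a := r * p.2.length) (fun ρ hρ => by
        rw [← pairW_eq, (hS ρ).1, decide_eq_true_eq, not_lt, ← Rat.cast_le (K := ℝ),
          val_setW lam (hS ρ).2.1 (hS ρ).2.2] at hρ
        have h2 : 3 * (p.2.length : ℝ) - 2 * cnt covered p.2 (names p (S ρ)) ≤
            (inst p).cost (S ρ) :=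
          le_cost (p := ((facs p.2).length, p.2)) (feas_big (hS ρ).2.1 (hS ρ).2.2)
        push_cast at hρ ⊢
        exact hρ.trans (add_le_add_right h2 _))
    rw [frq_not, ← expect_eq] at h1
    have h2 := h1.trans (hE hp)
    rw [sub_le_comm, le_div_iff₀ r0]
    refine le_of_mul_le_mul_right ?_ hm
    linarith
  have hno : ∀ p, (Cov ℕ (Real.exp (-a) * (1 + a) - ε) (Real.exp (-a) * (1 + ε))).no p →
      ∀ ρ : List Bool, ρ.length = q.eval (esize (w p)) →
      decide (val lam p ⟨A (pr (w p).w ρ)⟩ < r * p.2.length) = false := by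
    intro p hp ρ hρ
    obtain ⟨S, hS, -⟩ := h p hp.1
    obtain ⟨ρ', rfl⟩ : ∃ ρ' : Fin (q.eval (esize (w p))) → Bool, ρ = List.ofFn ρ' :=
      ⟨fun i => ρ[(i : ℕ)]'(by rw [hρ]; exact i.2), by apply List.ext_getElem <;> simp [hρ]⟩
    rw [decide_eq_false_iff_not, ← pairW_eq, (hS ρ').1, not_lt, ← Rat.cast_le (K := ℝ),
      val_setW lam (hS ρ').2.1 (hS ρ').2.2]
    have h1 := hp.2.2 (names p (S ρ'))
    have h2 : (cnt covered p.2 (names p (S ρ')) : ℝ) + viol covered p.2 (names p (S ρ')) =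
        p.2.length := by exact_mod_cast cnt_add_viol covered p.2 (names p (S ρ'))
    have h3 : ((names p (S ρ')).card : ℝ) ≤ (S ρ').card := by exact_mod_cast card_image_le
    have hm : (0 : ℝ) ≤ p.2.length := Nat.cast_nonneg _
    have h4 : 2 * (Real.exp (-a) * (1 + ε)) * (((names p (S ρ')).card : ℝ) / p.1 * p.2.length) ≤
        lam * (((S ρ').card : ℝ) / p.1 * p.2.length) := by
      gcongr
    have h5 := mul_le_mul_of_nonneg_right r2.le hm
    have h6 : (lam : ℝ) * p.2.length / p.1 * (S ρ').card =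
        lam * (((S ρ').card : ℝ) / p.1 * p.2.length) := by ring
    push_cast
    rw [h6]
    linarith
  intro L hL
  obtain ⟨A', P, hA', h'⟩ := hard.rp hB hq hqb (γ := 1 - (a * lam + b) / r)
    (by rw [sub_pos, div_lt_one r0]; exact r1) hyes hno (L := L) (by
      obtain ⟨V, q, hV, hL⟩ := hL
      refine ⟨V, q, hV, fun x => ?_⟩
      rw [hL x, pairW_eq, pairW_eq_pr])
  refine ⟨A', P, polyTime_iff.2 hA', fun x m hm => ?_⟩
  rw [frq_eq m fun ρ => A' (pairW x ρ) = [true], mul_div_cancel_right₀ _ (by positivity), hm,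
    pairW_eq]
  refine ⟨(h' x).1, fun hx => ?_⟩
  have h1 := frq_mono (Q := fun _ => False) ((h' x).2 hx)
  rw [frq_const] at h1
  simp only [ind, if_false] at h1
  linarith

theorem k_inst_le {p : ℕ × List (List ℕ)} (hk : 0 < p.1) : (inst p).k ≤ p.1 :=
  (min_le_left _ _).trans (max_le le_rfl hk)

/-- The lower bound for `k`-median. -/
theorem kMedian_hard {γ c : ℝ} (hγ : 0 ≤ γ) (hc0 : 0 ≤ c) (hc : c < 1 + 2 * Real.exp (-γ))
    (h : KMedian γ c) : NP ⊆ BPP := by
  obtain ⟨lam, l0, hl⟩ := core hγ hc0 hc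
  obtain ⟨A, q, hA, h⟩ := h
  refine hl A q (fun p => ⟨pairW (inst p).k.bits (ofInst (inst p)).code⟩) hA
    ((pt_raw (pt_dat_inst.snd.fst.pair pt_sdat_inst)).congr fun p => by
      rw [scode_eq, pairW_eq]; rfl) fun p hp => ?_
  obtain ⟨S, h1, h2, h3⟩ := h (ofInst (inst p)) (inst p).k (inst p).one_le_k (inst p).k_le
  refine ⟨S, h1, fun hy => ?_⟩
  have l1 : (0 : ℝ) ≤ lam := by exact_mod_cast l0
  have hk : (0 : ℝ) < p.1 := by exact_mod_cast hp
  have hk' : ((inst p).k : ℝ) ≤ p.1 := by exact_mod_cast k_inst_le hp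
  rw [expect_add_distrib, add_mul]
  refine add_le_add ((expect_le_expect (g := fun _ => γ * lam * p.2.length) fun ρ _ => ?_).trans
    (by simp)) (((expect_congr rfl fun ρ _ => (cost_ofInst _ _).symm).trans_le h3).trans ?_)
  · push_cast
    refine (mul_le_mul_of_nonneg_left ((h2 ρ).trans (mul_le_mul_of_nonneg_left hk' hγ))
      (by positivity)).trans (le_of_eq ?_)
    field_simp
  · rw [opt_ofInst]
    exact mul_le_mul_of_nonneg_left (opt_le_of_yes hy) hc0

theorem FacLoc.mono {a b b' : ℝ} (h : FacLoc a b) (hb : b ≤ b') : FacLoc a b' := by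
  obtain ⟨A, q, hA, h⟩ := h
  refine ⟨A, q, hA, fun X f h1 h2 => ?_⟩
  obtain ⟨S, s1, s2⟩ := h X f h1 h2
  exact ⟨S, s1, fun T t1 t2 => (s2 T t1 t2).trans
    (add_le_add_right (mul_le_mul_of_nonneg_right hb (space_cost_nonneg _ _)) _)⟩

/-- The lower bound for facility location. -/
theorem facLoc_hard {a b : ℝ} (ha : 0 ≤ a) (hb : b < 1 + 2 * Real.exp (-a)) (h : FacLoc a b) :
    NP ⊆ BPP := by
  have hb0 : 0 ≤ max b 0 := le_max_right _ _
  obtain ⟨lam, l0, hl⟩ := core ha hb0 (max_lt hb (by positivity))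
  obtain ⟨A, q, hA, h⟩ := h.mono (le_max_left b 0)
  have hf : PT ∅ fun p : ℕ × List (List ℕ) => (lam * p.2.length / p.1 : ℚ) :=
    PT_ratDiv (PT_ratMul (PT.const _) (PT_natCast PT.snd'.length)) (PT_natCast PT.fst')
  refine hl A q (fun p => ⟨pairW (ratW (lam * p.2.length / p.1)) (ofInst (inst p)).code⟩) hA
    ((pt_raw (((PT_num hf).natAbs.pair (PT_den hf)).pair pt_sdat_inst)).congr fun p => by
      rw [scode_eq, pairW_eq, ratW_eq]; rfl) fun p hp => ?_
  obtain ⟨S, h1, h2⟩ := h (ofInst (inst p)) (lam * p.2.length / p.1) (by positivity)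
    (card_pos.1 (lt_of_lt_of_le (inst p).one_le_k (inst p).k_le))
  refine ⟨S, h1, fun hy => ?_⟩
  obtain ⟨T, t1, t2⟩ := exists_opt_inst (inst p)
  have l1 : (0 : ℝ) ≤ lam := by exact_mod_cast l0
  have hk : (0 : ℝ) < p.1 := by exact_mod_cast hp
  have hk' : (T.card : ℝ) ≤ p.1 := by exact_mod_cast t1.2.2.trans (k_inst_le hp)
  have h3 := h2 T t1.1 (card_pos.1 t1.2.1)
  rw [cost_ofInst, t2] at h3
  refine ((expect_congr rfl fun ρ _ => congrArg _ (cost_ofInst _ _).symm).trans_le h3).trans ?_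
  rw [add_mul, mul_assoc]
  refine add_le_add (mul_le_mul_of_nonneg_left ?_ ha)
    (mul_le_mul_of_nonneg_left (opt_le_of_yes hy) hb0)
  push_cast
  refine (mul_le_mul_of_nonneg_left hk' (by positivity)).trans (le_of_eq ?_)
  field_simp

end Vale.Agent.N334B
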