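import Vale.Agent.N334B.Upper

/-!
The thresholds.
-/

namespace Vale.Agent.N334B

open Vale.Agent.P334

theorem alpha_eq {γ : ℝ} (hγ : 1 ≤ γ) (h : ¬ NP ⊆ BPP) : alpha γ = 1 + 2 * Real.exp (-γ) := by
  have he := Real.exp_pos (-γ)
  refine le_antisymm (le_of_forall_gt_imp_ge_of_dense fun c hc => ?_) ?_
  · exact csInf_le ⟨1, fun _ hc => hc.1⟩ ⟨by linarith, kMedian_easy hγ hc⟩
  · exact le_csInf ⟨_, by linarith, kMedian_easy hγ (lt_add_one _)⟩ fun _ hc => not_lt.1 fun h' =>
      h (kMedian_hard (by linarith) (zero_le_one.trans hc.1) h' hc.2)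

theorem exists_root : ∃ g : ℝ, g = 1 + 2 * Real.exp (-g) ∧ 1463 / 1000 < g ∧ g < 1464 / 1000 := by
  have h1 : Real.exp (1463 / 1000) < 2000 / 463 := by
    have k1 := Real.exp_bound' (x := 463 / 1000) (by norm_num) (by norm_num) (n := 5) (by norm_num)
    have k2 := Real.exp_one_lt_d9
    rw [show (1463 / 1000 : ℝ) = 1 + 463 / 1000 by norm_num, Real.exp_add]
    refine (mul_lt_mul'' k2 (k1.trans_lt (show _ < (15889 / 10000 : ℝ) by
      norm_num [Finset.sum_range_succ, Nat.factorial])) (Real.exp_pos _).le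
        (Real.exp_pos _).le).trans (by norm_num)
  have h2 : 2000 / 464 < Real.exp (1464 / 1000) := by
    have k1 := Real.sum_le_exp_of_nonneg (x := 464 / 1000) (by norm_num) 4
    have k2 := Real.exp_one_gt_d9
    rw [show (1464 / 1000 : ℝ) = 1 + 464 / 1000 by norm_num, Real.exp_add]
    refine lt_trans (by norm_num) (mul_lt_mul'' k2 (lt_of_lt_of_le (show (1588 / 1000 : ℝ) < _ by
      norm_num [Finset.sum_range_succ, Nat.factorial]) k1) (by norm_num) (by norm_num))
  obtain ⟨g, hg, e⟩ := intermediate_value_Ioo (show (1463 / 1000 : ℝ) ≤ 1464 / 1000 by norm_num)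
    (f := fun x => x - 2 * Real.exp (-x)) (by fun_prop) (show (1 : ℝ) ∈ _ from ⟨by
      have := (lt_inv_comm₀ (by norm_num) (Real.exp_pos _)).2
        (show Real.exp (1463 / 1000) < (463 / 2000 : ℝ)⁻¹ by rw [inv_div]; exact h1)
      simp only [Real.exp_neg]
      linarith, by
      have := (inv_lt_comm₀ (Real.exp_pos _) (by norm_num)).2
        (show (464 / 2000 : ℝ)⁻¹ < Real.exp (1464 / 1000) by rw [inv_div]; exact h2)
      simp only [Real.exp_neg]
      linarith⟩)
  exact ⟨g, by linarith [show g - 2 * Real.exp (-g) = 1 from e], hg.1, hg.2⟩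

theorem beta_eq (h : ¬ NP ⊆ BPP) :
    beta = 1 + 2 * Real.exp (-beta) ∧ 1463 / 1000 < beta ∧ beta < 1464 / 1000 := by
  obtain ⟨g, e, h1, h2⟩ := exists_root
  have k : ∀ c, g < c → FacLoc c c := fun c hc => facLoc_easy (by linarith) (by
    linarith [Real.exp_lt_exp.2 (neg_lt_neg hc)])
  have : beta = g := by
    refine le_antisymm (le_of_forall_gt_imp_ge_of_dense fun c hc => ?_) ?_
    · exact csInf_le ⟨1, fun _ hc => hc.1⟩ ⟨by linarith, k c hc⟩
    · exact le_csInf ⟨_, by linarith, k _ (lt_add_one _)⟩ fun c hc => not_lt.1 fun h' =>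
        h (facLoc_hard (zero_le_one.trans hc.1)
          (by linarith [Real.exp_lt_exp.2 (neg_lt_neg h')]) hc.2)
  rw [this]
  exact ⟨e, h1, h2⟩

end Vale.Agent.N334B
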