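import Vale.Agent.N334B.Lower

/-!
The algorithms: greedy augmentation of an approximate solution of `k`-median.
-/

namespace Vale.Agent.N334B

open Vale.Agent.P334 Vale.Agent.P334.Lower Vale.Agent.Lib.PolyTime Vale.Agent.Lib.PCP
  Vale.Agent.Lib.PTM Vale.Agent.P049 Finset

/-! ### Greedy augmentation -/

/-- Add the facility which decreases the cost most. -/
def gstep (D : List (List ℕ)) (J F S : List ℕ) : List ℕ :=
  amin (fun f => cost (dm D) J (f :: S)) (F.headD 0) F :: S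

theorem gain_one (d : ℕ → ℕ → ℕ) (j : ℕ) {S O : List ℕ} (hS : S ≠ []) (hO : O ≠ []) :
    dl d j S + (O.map fun o => dl d j (o :: S)).sum ≤ dl d j O + O.length * dl d j S := by
  have h0 : ∀ L : List ℕ, (L.map fun o => dl d j (o :: S)).sum ≤ L.length * dl d j S := fun L => by
    have := List.sum_le_card_nsmul (L.map fun o => dl d j (o :: S)) (dl d j S) fun x hx => by
      obtain ⟨o, -, rfl⟩ := List.mem_map.1 hx
      exact dl_mono d j hS fun s hs => List.mem_cons_of_mem _ hs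
    simpa using this
  have h1 : dl d j (near d j O :: S) ≤ dl d j O := dl_le d j List.mem_cons_self
  obtain ⟨s, t, e⟩ := List.append_of_mem (near_mem d j hO)
  have h2 := h0 s
  have h3 := h0 t
  generalize dl d j O = x at h1 ⊢
  generalize near d j O = o at h1 e
  rw [e, List.map_append, List.map_cons, List.sum_append, List.sum_cons, List.length_append,
    List.length_cons, add_mul, add_mul]
  omega

theorem gain (d : ℕ → ℕ → ℕ) (J : List ℕ) {S O : List ℕ} (hS : S ≠ []) (hO : O ≠ []) :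
    cost d J S + (O.map fun o => cost d J (o :: S)).sum ≤ cost d J O + O.length * cost d J S := by
  induction J with
  | nil => simp [cost]
  | cons j J ih =>
    have h := gain_one d j hS hO
    simp only [cost, List.map_cons, List.sum_cons, List.sum_map_add, mul_add] at ih ⊢
    omega

theorem gstep_le (D : List (List ℕ)) (J : List ℕ) {F S O : List ℕ} {k : ℕ} (hS : S ≠ [])
    (hO : Feas F k O) : (cost (dm D) J (gstep D J F S) : ℝ) - cost (dm D) J O ≤
      (1 - 1 / k) * (cost (dm D) J S - cost (dm D) J O) := by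
  have h1 := gain (dm D) J hS hO.1
  have h2 : O.length * cost (dm D) J (gstep D J F S) ≤
      (O.map fun o => cost (dm D) J (o :: S)).sum := by
    have := List.card_nsmul_le_sum (O.map fun o => cost (dm D) J (o :: S))
      (cost (dm D) J (gstep D J F S)) fun x hx => by
        obtain ⟨o, ho, rfl⟩ := List.mem_map.1 hx
        exact amin_le (fun f => cost (dm D) J (f :: S)) _ (hO.2.1 o ho)
    simpa using this
  have h3 : (cost (dm D) J (gstep D J F S) : ℝ) ≤ cost (dm D) J S := by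
    exact_mod_cast cost_mono (dm D) J hS fun s hs => List.mem_cons_of_mem _ hs
  have h4 : (cost (dm D) J S : ℝ) + O.length * cost (dm D) J (gstep D J F S) ≤
      cost (dm D) J O + O.length * cost (dm D) J S := by
    exact_mod_cast (Nat.add_le_add_left h2 _).trans h1
  have h5 : (O.length : ℝ) ≤ k := by exact_mod_cast hO.2.2
  have h6 : (0 : ℝ) < k := lt_of_lt_of_le (by exact_mod_cast List.length_pos_iff.2 hO.1) h5
  have h7 := mul_le_mul_of_nonneg_right h5 (sub_nonneg.2 h3)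
  rw [sub_mul, one_mul, one_div_mul_eq_div, le_sub_comm, div_le_iff₀ h6]
  linarith

theorem iter_spec (D : List (List ℕ)) (J : List ℕ) {F S O : List ℕ} {k : ℕ} (hS : Feas F k S)
    (hO : Feas F k O) (t : ℕ) : Feas F (k + t) ((gstep D J F)^[t] S) ∧
      (cost (dm D) J ((gstep D J F)^[t] S) : ℝ) - cost (dm D) J O ≤
        (1 - 1 / k) ^ t * (cost (dm D) J S - cost (dm D) J O) := by
  induction t with
  | zero => exact ⟨hS, by simp⟩
  | succ t ih =>
    have hF : F ≠ [] := List.ne_nil_of_mem (hS.2.1 _ (headD_mem hS.1))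
    have hk : (1 : ℝ) ≤ k := by
      exact_mod_cast (List.length_pos_iff.2 hO.1).trans_le hO.2.2
    rw [Function.iterate_succ_apply']
    refine ⟨⟨List.cons_ne_nil _ _, fun s hs => ?_, Nat.succ_le_succ ih.1.2.2⟩,
      (gstep_le D J ih.1.1 hO).trans ?_⟩
    · rcases List.mem_cons.1 hs with rfl | h
      · exact amin_headD_mem _ hF
      · exact ih.1.2.1 s h
    · rw [pow_succ', mul_assoc]
      exact mul_le_mul_of_nonneg_left ih.2 (sub_nonneg.2 ((div_le_one (by linarith)).2 hk))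

theorem esize_iter (D : List (List ℕ)) (J F S : List ℕ) (t : ℕ) :
    esize ((gstep D J F)^[t] S) ≤ esize S + t * (2 * esize F + 1) := by
  induction t with
  | zero => simp
  | succ t ih =>
    rw [Function.iterate_succ_apply', gstep, esize_list_cons, add_mul]
    have : esize (amin (fun f => cost (dm D) J (f :: (gstep D J F)^[t] S)) (F.headD 0) F) ≤
        esize F := by
      cases F with
      | nil => exact le_rfl
      | cons a F => exact esize_le_of_mem (amin_headD_mem _ (List.cons_ne_nil _ _))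
    omega

/-- The algorithm on integer instances. -/
theorem bi_det {γ c : ℝ} (hγ : 1 ≤ γ) (hc : 1 + 2 * Real.exp (-γ) < c) :
    ∃ g : Inp0 → List ℕ, PT ∅ g ∧ ∀ (D : List (List ℕ)) (J F : List ℕ) (k : ℕ), Valid0 D J F k →
      g (D, J, F, k) ≠ [] ∧ (∀ s ∈ g (D, J, F, k), s ∈ F) ∧
        ((g (D, J, F, k)).length : ℝ) ≤ γ * k ∧
        (cost (dm D) J (g (D, J, F, k)) : ℝ) ≤ c * opt (dm D) J F k := by
  have hc1 : 1 ≤ c := by linarith [Real.exp_pos (-γ)]
  obtain ⟨N, hN, hN1⟩ : ∃ N : ℕ,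
      1 + (2 / Real.exp 1 + 1 / N) * Real.exp (1 - γ + 2 * (1 / N)) < c ∧ 1 ≤ N := by
    have h1 : ContinuousAt (fun s : ℝ => 1 + (2 / Real.exp 1 + s) * Real.exp (1 - γ + 2 * s)) 0 :=
      by fun_prop
    have h2 := (h1.tendsto.comp (tendsto_one_div_atTop_nhds_zero_nat (𝕜 := ℝ))).eventually
      (gt_mem_nhds (show _ < c by
        rw [mul_zero, add_zero, add_zero, sub_eq_add_neg, Real.exp_add, ← mul_assoc,
          div_mul_cancel₀ _ (Real.exp_pos 1).ne']
        exact hc))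
    exact (h2.and (Filter.eventually_ge_atTop 1)).exists
  have hN0 : (0 : ℝ) < N := by exact_mod_cast hN1
  obtain ⟨g, hg, h⟩ := Vale.Agent.N334.outerDet (one_div_pos.2 hN0)
  obtain ⟨a, a1, a2, a3⟩ : ∃ a : ℕ, (a : ℝ) ≤ γ * N ∧ γ * N < a + 1 ∧ N ≤ a :=
    ⟨⌊γ * N⌋₊, Nat.floor_le (by positivity), Nat.lt_floor_add_one _,
      Nat.le_floor (le_mul_of_one_le_left hN0.le hγ)⟩
  refine ⟨fun x => if x.2.2.2 < N then pick x (tup x.2.2.1 N) else
    (gstep x.1 x.2.1 x.2.2.1)^[a * min x.2.2.2 x.2.2.1.length / N - x.2.2.2] (g x), ?_,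
    fun D J F k hv => ?_⟩
  · have hF : PT ∅ fun x : Inp0 => x.2.2.1 := PT.snd'.snd.fst
    have hb : PBd fun x : Inp0 => a * min x.2.2.2 x.2.2.1.length / N - x.2.2.2 :=
      ((PBd.const a).mul (PBd.length hF)).mono fun x =>
        (Nat.sub_le _ _).trans ((Nat.div_le_self _ _).trans
          (Nat.mul_le_mul_left _ (min_le_right _ _)))
    refine PT.ite (PT.snd'.snd.snd.lt (PT.const N)) (pt_pick PT.id (pt_tup PT.snd'.snd.fst N))
      (PT.iterate' (step := fun x : Inp0 => gstep x.1 x.2.1 x.2.2.1)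
        ((((PT.const a).mul (PT.min PT.snd'.snd.snd PT.snd'.snd.fst.length)).div
          (PT.const N)).sub PT.snd'.snd.snd) hb hg ?_
        (hg.pbd.add (hb.mul (((PBd.const 2).mul hF.pbd).add (PBd.const 1))))
        fun x j hj => (esize_iter _ _ _ _ j).trans
          (Nat.add_le_add_left (Nat.mul_le_mul_right _ hj) _))
    exact PT.cons (pt_amin (f := fun (p : Inp0 × List ℕ) f => cost (dm p.1.1) p.1.2.1 (f :: p.2))
      (pt_cost PT.fst'.fst.fst PT.fst'.fst.snd.fst (PT.cons PT.snd' PT.fst'.snd))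
      (PT.fst'.snd.snd.fst.headD (PT.const 0)) PT.fst'.snd.snd.fst) PT.snd'
  obtain ⟨O, o1, -, o2⟩ := exists_opt (dm D) J hv.F_ne hv.one_le_k
  have h0 : (0 : ℝ) ≤ opt (dm D) J F k := Nat.cast_nonneg _
  have hk : (1 : ℝ) ≤ k := by exact_mod_cast hv.one_le_k
  dsimp only
  split_ifs with e
  · have h1 := pick_feas hv (tup F N)
    refine ⟨h1.1, h1.2.1, (Nat.cast_le.2 h1.2.2).trans (le_mul_of_one_le_left (by linarith) hγ),
      le_trans (Nat.cast_le.2 ((pick_le D J F k (mem_tup o1.2.1 (o1.2.2.trans e.le)) o1).trans_eq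
        o2)) (le_mul_of_one_le_left h0 hc1)⟩
  · rw [min_eq_left hv.k_le]
    have e1 : k ≤ a * k / N := (Nat.le_div_iff_mul_le hN1).2 (by nlinarith)
    obtain ⟨t, ht⟩ := Nat.exists_eq_add_of_le e1
    have e2 : (N : ℝ) ≤ k := by exact_mod_cast not_lt.1 e
    have e3 : ((k + t : ℕ) : ℝ) * N ≤ a * k := by
      exact_mod_cast ht ▸ Nat.div_mul_le_self (a * k) N
    have e4 : (a : ℝ) * k < ((k + t : ℕ) + 1) * N := by
      exact_mod_cast ht ▸ (Nat.div_lt_iff_lt_mul hN1).1 (Nat.lt_succ_self (a * k / N))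
    rw [ht, Nat.add_sub_cancel_left]
    obtain ⟨h1, h2⟩ := h D J F k hv
    obtain ⟨i1, i2⟩ := iter_spec D J h1 o1 t
    refine ⟨i1.1, i1.2.1, (Nat.cast_le.2 i1.2.2).trans
      (le_of_mul_le_mul_right (by nlinarith) hN0), ?_⟩
    have k0 : 0 ≤ 1 - 1 / (k : ℝ) := sub_nonneg.2 ((div_le_one (by linarith)).2 hk)
    have k1 : (1 - 1 / (k : ℝ)) ^ t ≤ Real.exp (1 - γ + 2 * (1 / N)) := by
      refine (pow_le_pow_left₀ k0 (Real.one_sub_le_exp_neg _) t).trans ?_
      rw [← Real.exp_nat_mul, Real.exp_le_exp]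
      refine le_of_mul_le_mul_right ?_ (show (0 : ℝ) < k * N by positivity)
      have k2 : (t : ℝ) * -(1 / k) * (k * N) = -(t * N) := by field_simp
      have k3 : (1 - γ + 2 * (1 / N)) * (k * N) = k * N - γ * N * k + 2 * k := by field_simp
      rw [k2, k3]
      push_cast at e4
      nlinarith
    rw [o2] at i2
    have k4 : (1 - 1 / (k : ℝ)) ^ t * (cost (dm D) J (g (D, J, F, k)) - opt (dm D) J F k) ≤
        Real.exp (1 - γ + 2 * (1 / N)) * ((2 / Real.exp 1 + 1 / N) * opt (dm D) J F k) :=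
      (mul_le_mul_of_nonneg_left (by linarith) (pow_nonneg k0 t)).trans
        (mul_le_mul_of_nonneg_right k1 (by positivity))
    have k5 := mul_le_mul_of_nonneg_right hN.le h0
    linarith

/-! ### Spaces -/

theorem exists_alg {α : Type} [Enc α] {G : α → List ℕ} {M : α → List (List (ℕ × ℕ))} (hG : PT ∅ G)
    (hM : PT ∅ M) : ∃ A, PolyTime A ∧
      ∀ z ρ, A (pairW (enc z) ρ) = setW (toSet (M z).length (G z)) := by
  have hM' : PT ∅ fun z : α × Raw => M z.1 := hM.comp PT.fst'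
  obtain ⟨A, hA, hA'⟩ : PT ∅ fun z : α × Raw => Raw.mk ((List.range (M z.1).length).map fun i =>
      decide (i ∈ G z.1)) :=
    PT.rawOfList (PT.map (PT.range hM'.length (PBd.length hM'))
      (PT.mem (hG.comp PT.fst'.fst) PT.snd'))
  refine ⟨A, polyTime_iff.2 hA, fun z ρ => ?_⟩
  rw [setW_toSet, pairW_eq]
  exact hA' (z, ⟨ρ⟩)

/-- The integer instance given by the data of a space and a number `k`. -/
def sconv (k : ℕ) (t : SDat) : Inp0 := conv (t.1, k, t.2)

theorem pt_sconv {α : Type} [Enc α] {k : α → ℕ} {t : α → SDat} (hk : PT ∅ k) (ht : PT ∅ t) :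
    PT ∅ fun a => sconv (k a) (t a) := pt_conv.comp (ht.fst.pair (hk.pair ht.snd))

/-- The matrix of a space. -/
def smat (X : Space) : List (List (ℕ × ℕ)) := (sdat X).2.2.2.1

theorem smat_length (X : Space) : (smat X).length = X.n := List.length_ofFn

theorem sconv_sdat (X : Space) (k : ℕ) : sconv k (sdat X) =
    (imat (smat X), pos X.n ⟨setW X.J⟩, pos X.n ⟨setW X.F⟩, k) := by
  change (imat (smat X), pos (smat X).length ⟨setW X.J⟩, pos (smat X).length ⟨setW X.F⟩, k) = _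
  rw [smat_length]

theorem toSet_spec (X : Space) {S : List ℕ} (h1 : S ≠ []) (h2 : ∀ s ∈ S, s ∈ pos X.n ⟨setW X.F⟩) :
    toSet X.n S ⊆ X.F ∧ 1 ≤ (toSet X.n S).card ∧ (toSet X.n S).card ≤ S.length ∧
      0 < den (smat X) ∧
      X.cost (toSet X.n S) = cost (dm (imat (smat X))) (pos X.n ⟨setW X.J⟩) S / den (smat X) := by
  obtain ⟨x, hx, e⟩ := (mem_pos _ _).1 (h2 _ (headD_mem h1))
  have hF : 1 ≤ X.F.card := card_pos.2 ⟨x, hx⟩
  refine ⟨fun i hi => ?_, card_pos.2 ⟨x, mem_filter.2 ⟨mem_univ _, e ▸ headD_mem h1⟩⟩,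
    le_trans ?_ (List.toFinset_card_le S), den_pos (toInst X 1 le_rfl hF), ?_⟩
  · obtain ⟨x, hx, e⟩ := (mem_pos _ _).1 (h2 _ (mem_filter.1 hi).2)
    rwa [← Fin.ext e]
  · exact card_le_card_of_injOn (fun i => (i : ℕ))
      (fun i hi => List.mem_toFinset.2 (mem_filter.1 hi).2) fun _ _ _ _ e => Fin.ext e
  · rw [← cost_toInst X 1 le_rfl hF]
    refine cost_toSet (toInst X 1 le_rfl hF) h1 fun s hs => ?_
    obtain ⟨x, -, rfl⟩ := (mem_pos _ _).1 (h2 s hs)
    exact x.2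

theorem bi_space {γ c : ℝ} (hγ : 1 ≤ γ) (hc : 1 + 2 * Real.exp (-γ) < c) :
    ∃ g : ℕ × SDat → List ℕ, PT ∅ g ∧ ∀ (X : Space) (k : ℕ), 1 ≤ k → k ≤ X.F.card →
      g (k, sdat X) ≠ [] ∧ (∀ s ∈ g (k, sdat X), s ∈ pos X.n ⟨setW X.F⟩) ∧
        ((g (k, sdat X)).length : ℝ) ≤ γ * k ∧
        (cost (dm (imat (smat X))) (pos X.n ⟨setW X.J⟩) (g (k, sdat X)) : ℝ) / den (smat X) ≤
          c * X.opt k := by
  obtain ⟨g, hg, h⟩ := bi_det hγ hc
  refine ⟨fun z => g (sconv z.1 z.2), hg.comp (pt_sconv PT.fst' PT.snd'), fun X k h1 h2 => ?_⟩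
  obtain ⟨s1, s2, s3, s4⟩ := h (imat (smat X)) (pos X.n ⟨setW X.J⟩) (pos X.n ⟨setW X.F⟩) k
    (valid_conv (toInst X k h1 h2))
  dsimp only
  rw [sconv_sdat]
  refine ⟨s1, s2, s3, (div_le_div_of_nonneg_right s4 (Nat.cast_nonneg _)).trans ?_⟩
  rw [mul_div_assoc, ← opt_toInst X k h1 h2]
  exact mul_le_mul_of_nonneg_left (opt_conv (toInst X k h1 h2))
    (by linarith [Real.exp_pos (-γ)])

/-- The algorithm for `k`-median with `γ * k` facilities. -/
theorem kMedian_easy {γ c : ℝ} (hγ : 1 ≤ γ) (hc : 1 + 2 * Real.exp (-γ) < c) : KMedian γ c := by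
  obtain ⟨g, hg, h⟩ := bi_space hγ hc
  obtain ⟨A, hA, hA'⟩ := exists_alg hg (M := fun z => z.2.2.2.2.1) PT.snd'.snd.snd.snd.fst
  refine ⟨A, 0, hA, fun X k h1 h2 => ?_⟩
  obtain ⟨s1, s2, s3, s4⟩ := h X k h1 h2
  obtain ⟨t1, t2, t3, -, t4⟩ := toSet_spec X s1 s2
  refine ⟨fun _ => toSet X.n (g (k, sdat X)), fun ρ => ⟨?_, t1, t2⟩,
    fun _ => (Nat.cast_le.2 t3).trans s3, ?_⟩
  · have := hA' (k, sdat X) (List.ofFn ρ)
    rw [show ((k, sdat X) : ℕ × SDat).2.2.2.2.1.length = X.n from smat_length X, enc_pair,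
      ← pairW_eq, ← scode_eq] at this
    exact this
  · rw [Fintype.expect_const, t4]
    exact s4

theorem space_opt_le (X : Space) {k : ℕ} {T : Finset (Fin X.n)} (h1 : T ⊆ X.F) (h2 : 1 ≤ T.card)
    (h3 : T.card ≤ k) : X.opt k ≤ X.cost T :=
  csInf_le ⟨0, fun _ ⟨S, _, e⟩ => e ▸ space_cost_nonneg X S⟩ ⟨T, ⟨h1, h2, h3⟩, rfl⟩

/-- The algorithm for facility location. -/
theorem facLoc_easy {a b : ℝ} (ha : 1 ≤ a) (hb : 1 + 2 * Real.exp (-a) < b) : FacLoc a b := by
  obtain ⟨g, hg, h⟩ := bi_space ha hb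
  let wt : (ℕ × ℕ) × SDat → List ℕ → ℕ := fun z S => z.1.1 * den z.2.2.2.2.1 * S.length +
    z.1.2 * cost (dm (sconv 0 z.2).1) (sconv 0 z.2).2.1 S
  let G : (ℕ × ℕ) × SDat → List ℕ := fun z => amin (wt z) (g (1, z.2))
    ((List.range (sconv 0 z.2).2.2.1.length).map fun i => g (i + 1, z.2))
  have hG : PT ∅ G := by
    have h0 : PT ∅ fun z : (ℕ × ℕ) × SDat => sconv 0 z.2 := pt_sconv (PT.const 0) PT.snd'
    have h1 : PT ∅ fun p : ((ℕ × ℕ) × SDat) × List ℕ => sconv 0 p.1.2 := h0.comp PT.fst'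
    have h2 : PT ∅ fun p : ((ℕ × ℕ) × SDat) × List ℕ => den p.1.2.2.2.2.1 :=
      PT.prod (PT.map PT.fst'.snd.snd.snd.snd.fst.flatten PT.snd'.snd)
    exact pt_amin (f := wt) (((PT.fst'.fst.fst.mul h2).mul PT.snd'.length).add
      (PT.fst'.fst.snd.mul (pt_cost h1.fst h1.snd.fst PT.snd')))
      (hg.comp ((PT.const 1).pair PT.snd'))
      (PT.map (PT.range h0.snd.snd.fst.length (PBd.length h0.snd.snd.fst))
        (hg.comp ((PT.snd'.add (PT.const 1)).pair PT.fst'.snd)))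
  obtain ⟨A, hA, hA'⟩ := exists_alg hG (M := fun z => z.2.2.2.2.1) PT.snd'.snd.snd.snd.fst
  refine ⟨A, 0, hA, fun X f hf hF => ?_⟩
  obtain ⟨z, hz⟩ : ∃ z : (ℕ × ℕ) × SDat, z = ((f.num.natAbs, f.den), sdat X) := ⟨_, rfl⟩
  have hlen : (sconv 0 z.2).2.2.1.length = X.F.card := by rw [hz, sconv_sdat, pos_length]
  obtain ⟨k, k1, k2, e⟩ : ∃ k, 1 ≤ k ∧ k ≤ X.F.card ∧ G z = g (k, sdat X) := by
    rcases amin_mem (wt z) (g (1, z.2))
      ((List.range (sconv 0 z.2).2.2.1.length).map fun i => g (i + 1, z.2)) with e | e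
    · exact ⟨1, le_rfl, card_pos.2 hF, e.trans (by rw [hz])⟩
    · obtain ⟨i, hi, e⟩ := List.mem_map.1 e
      rw [hlen, List.mem_range] at hi
      exact ⟨i + 1, by omega, hi, e.symm.trans (by rw [hz])⟩
  obtain ⟨s1, s2, -⟩ := h X k k1 k2
  rw [← e] at s1 s2
  obtain ⟨t1, t2, t3, t0, t4⟩ := toSet_spec X s1 s2
  refine ⟨fun _ => toSet X.n (G z), fun ρ => ⟨?_, t1, t2⟩, fun T hT hT' => ?_⟩
  · have := hA' z (List.ofFn ρ)
    rw [show z.2.2.2.2.1.length = X.n by rw [hz]; exact smat_length X] at this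
    rw [← this, hz, enc_pair, ← pairW_eq, ← scode_eq, ← ratW_eq]
  · have c1 : 1 ≤ T.card := card_pos.2 hT'
    have c2 := card_le_card hT
    obtain ⟨-, -, u1, u2⟩ := h X T.card c1 c2
    have hw : ∀ S : List ℕ, (wt z S : ℝ) = f.den * den (smat X) * (f * S.length +
        cost (dm (imat (smat X))) (pos X.n ⟨setW X.J⟩) S / den (smat X)) := by
      intro S
      have h1 : ((f.num.natAbs : ℕ) : ℝ) = f * f.den := by
        rw [← Int.cast_natCast, Int.natAbs_of_nonneg (Rat.num_nonneg.2 hf)]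
        exact_mod_cast (Rat.mul_den_eq_num f).symm
      have h2 : (den (smat X) : ℝ) ≠ 0 := by exact_mod_cast t0.ne'
      have h3 : wt z S = f.num.natAbs * den (smat X) * S.length +
          f.den * cost (dm (imat (smat X))) (pos X.n ⟨setW X.J⟩) S := by
        simp only [wt, hz, sconv_sdat]
        rfl
      rw [h3]
      push_cast
      rw [h1]
      field_simp
    have h1 : (wt z (G z) : ℝ) ≤ wt z (g (T.card, sdat X)) := by
      refine Nat.cast_le.2 (amin_le (wt z) _ (List.mem_map.2 ⟨T.card - 1, ?_, ?_⟩))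
      · rw [hlen, List.mem_range]
        omega
      · rw [Nat.sub_add_cancel c1, hz]
    have h2 : (0 : ℝ) < f.den * den (smat X) := by
      exact_mod_cast Nat.mul_pos f.den_pos t0
    rw [hw, hw, mul_le_mul_iff_right₀ h2] at h1
    have f0 : (0 : ℝ) ≤ f := by exact_mod_cast hf
    have h3 := mul_le_mul_of_nonneg_left (Nat.cast_le (α := ℝ).2 t3) f0
    have h4 := mul_le_mul_of_nonneg_left u1 f0
    have h5 := mul_le_mul_of_nonneg_left (space_opt_le X hT c1 le_rfl)
      (show 0 ≤ b by linarith [Real.exp_pos (-a)])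
    rw [Fintype.expect_const, t4]
    linarith

end Vale.Agent.N334B
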